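import Vale.Agent.P057AS.Plan
import Vale.Agent.P057S1.View
import Vale.Agent.P057EN.Dbl
import Vale.Agent.P057PC.Blow

/-!
The algebra of the model: the old labels are sums over the parts of the vertices.
-/

set_option linter.all false

open Matrix Finset
open Vale.Agent.P267.H775 Vale.Agent.P057G Vale.Agent.P057PC Vale.Agent.P057TP
open Vale.Agent.P057SG Vale.Agent.P057FC Vale.Agent.P057AS
open Vale.Agent.P057ST (mR)
open Vale.Agent.P057DP (pbo ok_pbo at_pbo img mem_img Gam_ne)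
open Vale.Agent.P057SY (fo)
open Vale.Agent.P057EN (tot tot_lab exists_lab qq_rel lab_eq)
open Vale.Agent.P057S1 (jn up ext ok_ext at_ext cL_mg pr_mg_ext pr_dy_ext jn_pure gl3_pu gl3_li
  lin_nl bs_unit er_img er_ins)

namespace Vale.Agent.P057SK

noncomputable section

/-- a bound on every orthogonal block gives a bound up to the number of coordinates -/
theorem qq_par {L K Φ : Type} [Fintype L] [Fintype K] {G : Matrix L L ℝ} (hG : G.PosSemidef)
    {H : Matrix K K ℝ} (hH : H.PosSemidef) (f : L → Φ) (hf : ∀ i j, G i j ≠ 0 → f i = f j)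
    (Q : Matrix K L ℝ) (h : ∀ φ v, (∀ i, v i ≠ 0 → f i = φ) → qq H (Q *ᵥ v) ≤ qq G v)
    (v : L → ℝ) : qq H (Q *ᵥ v) ≤ Fintype.card L * qq G v := by
  classical
  let u : Φ → L → ℝ := fun φ i => if f i = φ then v i else 0
  have e : v = ∑ φ ∈ univ.image f, u φ := funext fun i => by simp [u, Finset.sum_apply]
  have e2 : ∑ φ ∈ univ.image f, qq G (u φ) = qq G v := by
    simp only [qq, dotProduct, mulVec, mul_sum]
    rw [sum_comm]
    refine sum_congr rfl fun i _ => ?_
    rw [sum_comm]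
    refine sum_congr rfl fun j _ => ?_
    rw [sum_eq_single_of_mem (f i) (mem_image_of_mem f (mem_univ i)) fun φ _ k => by
      simp [u, k.symm]]
    by_cases k : G i j = 0
    · simp [k]
    · simp [u, hf i j k]
  calc qq H (Q *ᵥ v) = qq H (∑ φ ∈ univ.image f, Q *ᵥ u φ) := by rw [← mulVec_sum, ← e]
    _ ≤ _ := qq_sum_le hH _ _
    _ ≤ _ := by
      rw [← e2]
      refine mul_le_mul (Nat.cast_le.2 card_image_le) (sum_le_sum fun φ _ => h φ _ fun i k => ?_)
        (sum_nonneg fun _ _ => qq_nonneg hH _) (Nat.cast_nonneg _)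
      exact by_contra fun c => k (if_neg c)

section gen

variable {T : Tow} {C C' W V : Type} [Fintype W] [DecidableEq W] [Fintype V] [DecidableEq V]
  {cl : W → C} {cl' : V → C'} {m : ℕ} {om : V → W}

theorem bs_none (l : Lb T cl' Empty m) : l.bs = none := by
  cases h : l.bs with
  | none => rfl
  | some e => exact e.elim

open Classical in
/-- the sum over the parts of the vertices of `A` -/
def ps (om : V → W) (y : Lb T cl' Empty m → ℝ) (a : T.ι) (A : Finset W) : ℝ :=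
  ∑ k, if k.cd = a ∧ k.fc.image om = A then y k else 0

variable (hc : ∀ w w', cl (om w) = cl (om w') ↔ cl' w = cl' w') {y : Lb T cl' Empty m → ℝ}
  {z : Lb T cl Unit m → ℝ} (hz : ∀ l, l.bs = none → z l = ps om y l.cd l.fc)

include hc hz

theorem pt_ps (B : Finset W) : pt z none B = pt y none (univ.filter fun v => om v ∈ B) := by
  classical
  funext b
  have e : ∀ l : Lb T cl Unit m, (if l.cd = b ∧ l.fc ⊆ B ∧ l.bs = none then z l else 0) =
      ∑ k, if (l.cd = b ∧ l.fc ⊆ B ∧ l.bs = none) ∧ k.cd = l.cd ∧ k.fc.image om = l.fc then y k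
        else 0 := fun l => by
    split_ifs with h
    · rw [hz l h.2.2, ps]
      exact sum_congr rfl fun k _ => by simp only [h, true_and]
    · exact (sum_eq_zero fun k _ => if_neg fun c => h c.1).symm
  simp only [pt, or_self, e]
  rw [sum_comm]
  refine sum_congr rfl fun k _ => ?_
  have h1 : (P057GH.lift hc (Empty.elim : Empty → Unit) k).bs = none := by
    rw [P057GH.lift_bs, bs_none k]; rfl
  rw [sum_eq_single (P057GH.lift hc Empty.elim k) (fun l _ c => if_neg fun d =>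
    c (Lb.ext' d.2.1.symm d.2.2.symm (d.1.2.2.trans h1.symm))) (by simp)]
  simp only [P057GH.lift_cd, P057GH.lift_fc, h1, bs_none k, and_true, image_subset_iff]
  simp only [subset_iff, mem_filter, mem_univ, true_and]

/-- the centres of the pure labels are the sums of the centres over the parts -/
theorem pr_ps {Z : Sys T W Unit} {Z' : Sys T V Empty} (h' : Z'.Ok) {l : Lb T cl Unit m}
    (hl : l.bs = none) (ha : ∀ B, Z'.fam.at' none (univ.filter fun v => om v ∈ B) l.cd =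
      Z.fam.at' none B l.cd) : Z.pr cl m z l = ps om (Z'.pr cl' m y) l.cd l.fc := by
  classical
  have e1 : Z.pr cl m z l = dlt (fun B => ∑ D : Finset V,
      if D.image om ⊆ B then Z'.fam.alt (pt y) none D l.cd else 0) l.fc := by
    rw [Sys.pr, hl]
    refine dlt_congr fun B _ => ?_
    rw [pt_ps hc hz, ← ha, ← sum_powerset_dlt
      (fun B => MvPolynomial.eval (pt y none B) (Z'.fam.at' none B l.cd)), ← sum_filter]
    refine sum_congr ?_ fun _ _ => rfl
    ext D
    simp [image_subset_iff, subset_iff]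
  rw [e1, dlt_sum]
  simp only [dlt_ind]
  rw [ps, ← sum_filter, ← sum_filter]
  refine (sum_of_injOn Lb.fc (fun k hk k' hk' e => ?_) (fun k hk => ?_) (fun D hD k => ?_)
    fun k hk => ?_).symm
  · simp only [coe_filter, mem_univ, true_and, Set.mem_setOf_eq] at hk hk'
    exact Lb.ext' (hk.1.trans hk'.1.symm) e ((bs_none k).trans (bs_none k').symm)
  · simp only [coe_filter, mem_univ, true_and, Set.mem_setOf_eq] at hk ⊢
    exact hk.2
  · have e := (mem_filter.1 hD).2
    refine h'.fam.alt_lt y none (lt_of_le_of_ne ?_ fun c => k ?_)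
    · rw [← l.card_eq hl, ← e]; exact card_image_le
    · have i1 : Set.InjOn om D := injOn_of_card_image_eq (by rw [e, l.card_eq hl, c])
      refine ⟨⟨(l.cd, D, none), l.2.1, fun v hv w hw k => i1 hv hw (l.2.2.1 ?_ ?_ ((hc _ _).2 k)),
        c.symm⟩, mem_coe.2 (mem_filter.2 ⟨mem_univ _, rfl, e⟩), rfl⟩
      · exact mem_coe.2 (e ▸ mem_image_of_mem om hv : om v ∈ l.fc)
      · exact mem_coe.2 (e ▸ mem_image_of_mem om hw : om w ∈ l.fc)
  · rw [Sys.pr, bs_none k, (mem_filter.1 hk).2.1]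

end gen

section fib

variable {T : Tow} {C C' U V : Type} [Fintype U] [DecidableEq U] [Fintype V] [DecidableEq V]
  {cl : U → C} {cl' : V → C'} {m : ℕ}

theorem none_fo {l : Lb T cl Unit m} : none ∈ fo l ↔ l.bs ≠ none := by
  unfold fo; split_ifs with h <;> simp [h]

theorem er_fo (l : Lb T cl Unit m) : eraseNone (fo l) = l.fc := by
  unfold fo; split_ifs; exacts [er_img _, er_ins _]

theorem fo_inj {l l' : Lb T cl Unit m} (h1 : l.cd = l'.cd) (h2 : fo l = fo l') : l = l' :=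
  lab_eq (bs_unit l') (bs_unit l) h1 (by rw [← er_fo, h2, er_fo])

theorem exists_dn (k : Lb T (Option.map cl) Unit m) (hk : k.bs = none) :
    ∃ l : Lb T cl Unit m, l.cd = k.cd ∧ fo l = k.fc ∧ l.Pure := by
  have h0 := k.card_eq hk
  obtain ⟨l, h1, h2, -⟩ := exists_lab (T := T) (cl := cl) (m := m) () (a := k.cd)
    (A := eraseNone k.fc) k.2.1 (fun u hu v hv e => Option.some.inj
      (k.2.2.1 (mem_eraseNone.1 hu) (mem_eraseNone.1 hv) (congrArg some e)))
    (h0 ▸ card_eraseNone_le _)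
  have h3 : l.bs = none ↔ none ∉ k.fc := by
    refine ⟨fun e c => ?_, fun e => (bs_unit l).resolve_right fun c => ?_⟩
    · have := l.card_eq e
      have := card_pos.2 ⟨_, c⟩
      rw [h1, h2, card_eraseNone_of_mem c] at *
      omega
    · have := l.card_lt c
      rw [h1, h2, card_eraseNone_of_not_mem e] at this
      omega
  refine ⟨l, h1, ?_, (em (none ∈ k.fc)).symm.imp h3.2 fun c => ?_⟩
  · ext x
    cases x with
    | none => rw [none_fo, Ne, h3, not_not]
    | some u => rw [← mem_eraseNone, er_fo, h2, mem_eraseNone]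
  · have := card_pos.2 ⟨_, c⟩
    rw [h1, h2, card_eraseNone_of_mem c]
    omega

/-- the linear part of the centres on the linear fibre, as a sum over the parts -/
theorem cL_ps {Z : Sys T U Unit} (h : Z.Ok) {Z' : Sys T V Empty} (h' : Z'.Ok) {om : V → Option U}
    (hc : ∀ w w', (om w).map cl = (om w').map cl ↔ cl' w = cl' w')
    (ha : ∀ B a, Z'.fam.at' none (univ.filter fun v => om v ∈ B) a =
      Z.fam.at' none (eraseNone B) a) {y : Lb T cl' Empty m → ℝ} {w : PW T cl m → ℤ}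
    {t : LS T cl m → ℝ} (hw : ∀ l : PW T cl m, (w l : ℝ) = ps om y l.1.cd (fo l.1))
    (ht : ∀ l : LS T cl m, t l = ps om y l.1.cd (fo l.1)) (l : LS T cl m) :
    cL Z w t l - cL Z w 0 l = ps om (Z'.pr cl' m y) l.1.cd (fo l.1) := by
  have e := cL_mg (ok_ext h) w 0 t l
  simp only [cL, pr_mg_ext, pr_dy_ext, zero_add] at e
  rw [cL, cL, e, add_sub_cancel_left, pr_ps hc (y := y) (fun k hk => ?_) h' rfl
    fun B => by rw [ha, at_ext], fo, if_neg (show ¬ l.1.bs = none from l.2.2)]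
  · rfl
  obtain ⟨j, h1, h2, -⟩ := exists_dn k hk
  rw [jn_pure (y' := fun j => ps om y j.cd (fo j)) (x' := fun j => ps om y j.cd (fo j))
    (fun j hj => (gl3_pu _ _ _ ⟨j, hj⟩).trans (hw _))
    (fun j hj => (gl3_li _ _ _ ⟨j, hj⟩).trans (ht _)) hk, jn, ite_self, ← h1, ← h2, er_fo,
    tot_lab _ (bs_unit j)]

end fib

variable {T : Tow} {n p : ℕ} {R ι : Type} [Fintype R] [DecidableEq R] [Fintype ι] [DecidableEq ι]

section parts

variable {O : Type} [Fintype O] {π : O → Uv n p R}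

theorem none_lfo {l : Lo T π} : none ∈ lfo l ↔ none ∈ l.fc := by
  rw [lfo, mem_biUnion]
  refine ⟨fun ⟨x, h1, h2⟩ => ?_, fun h => ⟨none, h, mem_singleton_self _⟩⟩
  rcases x with _ | w | u
  · exact h1
  · simp [lco] at h2
  · simp [lco] at h2

theorem none_img {k : Lo T π} {l : Lu T n p R} (h : k.fc.image (omo π) = fo l) :
    none ∈ k.fc ↔ l.bs ≠ none := by
  rw [← none_fo, ← h, mem_image]
  refine ⟨fun c => ⟨none, c, rfl⟩, fun ⟨x, h1, h2⟩ => ?_⟩
  cases x with
  | none => exact h1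
  | some x => cases h2

theorem hc_omo (w w' : Vo n p O) :
    (omo π w).map cU = (omo π w').map cU ↔ cVo π w = cVo π w' := by
  have e : ∀ v, (omo π v).map cU = cVo π v := fun v => by rcases v with _ | v | v <;> rfl
  rw [e, e]

theorem rmo_pure (y : Lo T π → ℝ) {l : Lu T n p R} (h : l.Pure) :
    rmo y l = ps (omo π) y l.cd (fo l) := by
  unfold rmo ps
  refine sum_congr rfl fun k _ => ?_
  simp only [h, and_true]
  congr <;> exact Subsingleton.elim _ _

end parts

variable {M : Mdd T n p R ι} {Z : Sys T (Uv n p R) Unit} {γ U : ℝ} {S : MS (Option (Fin n)) ι}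
  {φ : (ι → ℝ) → Lu T n p R → ℝ} {k : ℕ}

open Classical in
/-- the matrix of the model on the linear fibre -/
def QM (M : Mdd T n p R ι) : Matrix (Lg T n p R) ι ℤ := fun l => Function.extend M.lab
  (fun k => if k.1.cd = l.1.cd ∧ k.1.fc.image (omo M.π) = fo l.1 then ∏ u ∈ k.1.fc, (M.e u : ℤ)
    else 0) 0

theorem QM_mul (hi : M.lab.Injective) (x : ι → ℝ) {y : Lo T M.π → ℝ}
    (hy : ∀ k : Lvo T M.π, y k = (∏ u ∈ k.1.fc, (M.e u : ℝ)) * x (M.lab k)) (l : Lg T n p R) :
    (mR (QM M) *ᵥ x) l = ps (omo M.π) y l.1.cd (fo l.1) := by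
  classical
  refine (Fintype.sum_of_injective M.lab hi _ _ (fun i c => ?_) fun k => ?_).symm.trans
    (Fintype.sum_of_injective Subtype.val Subtype.val_injective _ _ (fun k c => ?_) fun _ => rfl)
  · change (QM M l i : ℝ) * x i = 0
    rw [QM, Function.extend_apply' _ _ _ c]; simp
  · change _ = (QM M l (M.lab k) : ℝ) * x (M.lab k)
    rw [QM, hi.extend_apply, hy]
    split_ifs <;> simp
  · exact if_neg fun d => c ⟨⟨k, none, none_lfo.2 ((none_img d.2).2 l.2.2)⟩, rfl⟩

theorem QM_ne (hi : M.lab.Injective) {l : Lg T n p R} {i : ι} (h : QM M l i ≠ 0) :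
    ∃ k, M.lab k = i ∧ k.1.cd = l.1.cd ∧ k.1.fc.image (omo M.π) = fo l.1 := by
  by_cases c : ∃ k, M.lab k = i
  · obtain ⟨k, rfl⟩ := c
    rw [QM, hi.extend_apply] at h
    exact ⟨k, rfl, by_contra fun d => h (if_neg d)⟩
  · rw [QM, Function.extend_apply' _ _ _ c] at h
    exact absurd rfl h

theorem at_jko (h : Md M Z γ S φ k U) (B : Finset (Option (Uv n p R))) (a : T.ι) :
    (pbo Z (jko M.jo) Empty).fam.at' none (univ.filter fun v => omo M.π v ∈ B) a =
      Z.fam.at' none (eraseNone B) a := by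
  have e : ∀ v u, jko M.jo v = some u ↔ ∃ o, v = some (Sum.inr o) ∧ M.jo o = some u :=
    fun v u => by rcases v with _ | v | v <;> simp [jko]
  rw [at_pbo Z (cl₁ := id) (fun v v' u h1 h2 => ?_) none (Set.injOn_id _)]
  · congr 1
    ext u
    simp only [mem_img, e, mem_filter, mem_univ, true_and, mem_eraseNone]
    refine ⟨?_, fun c => ?_⟩
    · rintro ⟨_, c, o, rfl, d⟩
      exact h.jp o u d ▸ c
    · obtain ⟨o, d, -⟩ := h.ju u
      exact ⟨some (Sum.inr o), show some (M.π o) ∈ B from (h.jp o u d).symm ▸ c, o, rfl, d⟩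
  · obtain ⟨o, rfl, c⟩ := (e _ _).1 h1
    obtain ⟨o', rfl, c'⟩ := (e _ _).1 h2
    rw [(h.ju u).unique c c']

theorem QM_glo (hi : M.lab.Injective) (x : ι → ℝ) (l : Lg T n p R) : (mR (QM M) *ᵥ x) l =
    ps (omo M.π) (glo M.e (x ∘ M.lab) M.D) l.1.cd (fo l.1) := QM_mul hi x (fun k => dif_pos k.2) l

theorem md_int (h : Md M Z γ S φ k U) (x : ι → ℤ) : ∃ y, φ (toR x) = toR y := by
  classical
  have : ∀ l, ∃ y : ℤ, φ (toR x) l = y := fun l => by
    rw [h.map, rmo]
    refine sum_induction _ (fun r : ℝ => ∃ y : ℤ, r = y)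
      (fun _ _ ⟨a, ha⟩ ⟨b, hb⟩ => ⟨a + b, by rw [ha, hb, Int.cast_add]⟩) ⟨0, by simp⟩ fun k _ => ?_
    unfold glo
    split_ifs with c d
    · exact ⟨(∏ u ∈ k.fc, (M.e u : ℤ)) * x (M.lab ⟨k, d⟩), by simp⟩
    · exact ⟨_, rfl⟩
    · exact ⟨0, by simp⟩
  choose y hy using this
  exact ⟨y, funext hy⟩

theorem md_ort (hS : S.Ok) (h : Md M Z γ S φ k U) {a : Lvo T M.π} {j : ι}
    (c : S.G (M.lab a) j ≠ 0) : ∃ b, M.lab b = j ∧ a.1.fc = b.1.fc := by
  by_cases d : ∃ b, M.lab b = j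
  · obtain ⟨b, rfl⟩ := d
    rw [h.G] at c
    exact ⟨b, rfl, (Gam_ne (right_ne_zero_of_mul c)).1⟩
  · exact absurd (hS.orth _ _ c).2 ((h.xl j (mem_filter.2 ⟨mem_univ _, d⟩)).1 a).ne

/-- the coordinate `i` is the part of `l` on the face `D` -/
def Pt (M : Mdd T n p R ι) (D : Finset (Vo n p M.O)) (l : Lg T n p R) (i : ι) : Prop :=
  ∃ a, M.lab a = i ∧ a.1.fc = D ∧ a.1.cd = l.1.cd ∧ a.1.fc.image (omo M.π) = fo l.1

open Classical in
theorem md_face (hS : S.Ok) (h : Md M Z γ S φ k U) (D : Finset (Vo n p M.O)) (v : ι → ℝ) :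
    (∏ u ∈ D, M.g u) * qq (bk (Gam T cU Unit (n + 2)) Li)
      (Matrix.of (fun l i => if Pt M D l i then (1 : ℝ) else 0) *ᵥ v) ≤ qq S.G v := by
  rw [← qq_smul_mat]
  refine qq_rel hS.pd (Pt M D) ?_ ?_ ?_ v
  · rintro l l' _ ⟨a, rfl, -, c1, c2⟩ ⟨b, d, -, d1, d2⟩
    obtain rfl := h.inj d
    exact Subtype.ext (fo_inj (c1.symm.trans d1) (c2.symm.trans d2))
  · rintro l l' _ _ ⟨a, rfl, c0, c1, c2⟩ ⟨b, rfl, d0, d1, d2⟩
    have e : fo l.1 = fo l'.1 := by rw [← c2, ← d2, c0, d0]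
    have e1 : Gam T cU Unit (n + 2) l.1 l'.1 = T.G l.1.cd l'.1.cd :=
      if_pos ⟨by rw [← er_fo, e, er_fo], ((bs_unit _).resolve_left l.2.2).trans
        ((bs_unit _).resolve_left l'.2.2).symm⟩
    have e2 : Gam T (cVo M.π) Empty (n + 2) a.1 b.1 = T.G a.1.cd b.1.cd :=
      if_pos ⟨c0.trans d0.symm, (bs_none _).trans (bs_none _).symm⟩
    rw [h.G, c0, e2, c1, d1, ← e1]
    rfl
  · rintro _ j ⟨l, a, rfl, c2, c3, c4⟩ c
    by_contra d
    obtain ⟨b, rfl, e⟩ := md_ort hS h d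
    obtain ⟨l', d1, d2, d3⟩ := exists_dn (P057GH.lift hc_omo (Empty.elim : Empty → Unit) b.1)
      (by rw [P057GH.lift_bs, bs_none b.1]; rfl)
    exact c ⟨⟨l', d3, (none_img d2.symm).1 (e ▸ (none_img c4).2 l.2.2)⟩, b, rfl, e ▸ c2, d1.symm,
      d2.symm⟩

open Classical in
theorem QM_face (hi : M.lab.Injective) {D : Finset (Vo n p M.O)} {v : ι → ℝ}
    (hv : ∀ a, v (M.lab a) ≠ 0 → a.1.fc = D) : mR (QM M) *ᵥ v = (∏ u ∈ D, (M.e u : ℝ)) •
      (Matrix.of (fun l i => if Pt M D l i then (1 : ℝ) else 0) *ᵥ v) := funext fun l => by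
  simp only [mulVec, dotProduct, Pi.smul_apply, smul_eq_mul, mul_sum, of_apply]
  refine sum_congr rfl fun i _ => ?_
  change (QM M l i : ℝ) * _ = _
  by_cases c : v i = 0
  · simp [c]
  split_ifs with d
  · obtain ⟨a, rfl, rfl, d⟩ := d
    rw [QM, hi.extend_apply, if_pos d]
    simp
  · have e : QM M l i = 0 := by
      by_contra e
      obtain ⟨a, rfl, e'⟩ := QM_ne hi e
      exact d ⟨a, rfl, hv _ c, e'⟩
    simp [e]

theorem md_nrm (hT : T.G.PosDef) (hS : S.Ok) (h : Md M Z γ S φ k U) (v : ι → ℝ) :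
    γ * qq (bk (Gam T cU Unit (n + 2)) Li) (mR (QM M) *ᵥ v) ≤ Fintype.card ι * qq S.G v := by
  classical
  have hγ : 0 ≤ γ := h.g0 ▸ zero_le_one.trans (h.gb none).1
  have hΓ := (posDef_bk (P057GH.pd_Gam hT (cU : Uv n p R → _) Unit (n + 2)) Li).posSemidef
  let f : ι → Finset (Vo n p M.O) := Function.extend M.lab (fun a => a.1.fc) fun _ => ∅
  have hf : ∀ a, f (M.lab a) = a.1.fc := fun a => h.inj.extend_apply _ _ a
  have hf' : ∀ i, (¬ ∃ a, M.lab a = i) → f i = ∅ := fun i => Function.extend_apply' _ _ i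
  rw [← qq_smul_mat]
  refine qq_par hS.pd.posSemidef (hΓ.smul hγ) f (fun i j c => ?_) _ (fun D v hv => ?_) v
  · by_cases d : ∃ a, M.lab a = i
    · obtain ⟨a, rfl⟩ := d
      obtain ⟨b, rfl, e⟩ := md_ort hS h c
      rw [hf, hf, e]
    · rw [hf' i d, hf' j fun ⟨a, e⟩ => ?_]
      obtain ⟨b, e', -⟩ := md_ort hS h (a := a) (j := i)
        (by rwa [e, ← hS.pd.1.apply, star_trivial])
      exact d ⟨b, e'⟩
  rw [QM_face h.inj fun a c => (hf a).symm.trans (hv _ c), qq_smul_mat, qq_smul, ← mul_assoc]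
  by_cases hD : none ∈ D
  · refine (mul_le_mul_of_nonneg_right ?_ (qq_nonneg hΓ _)).trans (md_face hS h D v)
    rw [← mul_prod_erase _ _ hD, ← mul_prod_erase _ M.g hD, h.e0, h.g0, Nat.cast_one, one_mul,
      ← prod_pow]
    exact mul_le_mul_of_nonneg_left (prod_le_prod (fun _ _ => sq_nonneg _) fun u _ => h.eg u) hγ
  · rw [show Matrix.of (fun l i => if Pt M D l i then (1 : ℝ) else 0) = 0 from
      Matrix.ext fun l i => if_neg fun ⟨a, _, c, _, d⟩ => hD (c ▸ (none_img d).2 l.2.2),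
      zero_mulVec, qq_zero, mul_zero]
    exact qq_nonneg hS.pd.posSemidef _

theorem sig : SIG := fun s N T n p R _ _ Z hT hZ => ⟨lin_nl hZ, fun γ U ι _ _ S φ k M hS h => by
  refine ⟨QM M, md_int h, fun x x' c => funext fun l => congrArg round ?_,
    fun x l => by rw [h.map, rmo_pure _ l.2.1, QM_glo h.inj], fun l i c => ?_,
    fun x => funext fun l => ?_, md_nrm hT.pd hS h⟩
  · rw [h.map, h.map, rmo_pure _ (Or.inl l.2), rmo_pure _ (Or.inl l.2)]
    refine sum_congr rfl fun j _ => ?_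
    split_ifs with d
    · unfold glo
      split_ifs with e
      · rw [Function.comp_apply, Function.comp_apply, c _ (fun b => (mem_filter.1 b).2 ⟨_, rfl⟩)
          fun b => ?_]
        rw [h.fc, none_lfo] at b
        exact (none_img d.2).1 b l.2
      · rfl
    · rfl
  · obtain ⟨j, rfl, -, d⟩ := QM_ne h.inj c
    rw [h.fc, none_lfo]
    exact (none_img d).2 l.2.2
  · obtain ⟨y, hy⟩ := md_int h x
    rw [Pi.sub_apply, QM_mul h.inj (S.p (toR x)) (fun j => (h.cen (toR x) j).symm)]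
    refine cL_ps hZ (ok_pbo hZ _ _) hc_omo (at_jko h) (fun j => ?_) (QM_glo h.inj _) l
    rw [← rmo_pure _ (Or.inl j.2), ← h.map, rp, hy, toR_apply, round_intCast]⟩

end

end Vale.Agent.P057SK
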